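import Vale.Agent.P064.H337.Swap

/-!
The rainbow version of the threshold theorem for group actions.
-/

set_option linter.all false

namespace Vale.Agent.P064.H337

open Finset Vale.Agent.P064 Vale.Agent.P064.Act
open scoped Pointwise Nat

section Bridge

variable {X K : Type*} [Fintype X] [DecidableEq X] [Fintype K] [DecidableEq K]

/-- Subsets of the product as functions. -/
def subE : Finset (X × K) ≃ (X → Finset K) where
  toFun W x := univ.filter fun c => (x, c) ∈ W
  invFun S := univ.filter fun e => e.2 ∈ S e.1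
  left_inv W := by ext ⟨x, c⟩; simp
  right_inv S := by funext x; ext c; simp

theorem ES_prod (q : ℝ) (f : Finset (X × K) → ℝ) :
    ES q univ f = EW (fun _ : X => wA q) (fun S => f (univ.filter fun e => e.2 ∈ S e.1)) := by
  unfold ES EW
  rw [Finset.powerset_univ]
  apply Fintype.sum_equiv subE
  intro W
  have e1 : (univ.filter fun e : X × K => e.2 ∈ subE W e.1) = W := subE.left_inv W
  beta_reduce
  rw [e1]
  congr 1
  unfold wA wtS
  rw [Fintype.prod_prod_type]
  apply Finset.prod_congr rfl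
  intro x _
  apply Finset.prod_congr rfl
  intro c _
  simp [subE]

/-- A subset and a colouring as a function. -/
def colE : (X → K) × Finset X ≃ (X → K × Bool) where
  toFun p x := (p.1 x, decide (x ∈ p.2))
  invFun ω := (fun x => (ω x).1, univ.filter fun x => (ω x).2 = true)
  left_inv p := by
    ext x
    · rfl
    · simp
  right_inv ω := by
    funext x
    ext
    · rfl
    · simp

theorem EW_wB (p : ℝ) (Φ : (X → Finset K) → ℝ) :
    EW (fun _ : X => wB p) Φ =
      (∑ χ : X → K, ES p univ (fun W => Φ (fun x => if x ∈ W then {χ x} else ∅))) /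
        (Fintype.card K : ℝ) ^ Fintype.card X := by
  have h := EW_map (X := X) (fun o : K × Bool =>
    (1 / (Fintype.card K : ℝ)) * (if o.2 then p else 1 - p))
    (fun o => (if o.2 then {o.1} else ∅ : Finset K)) Φ
  have h2 : EW (fun _ : X => wB p) Φ = EW (fun _ : X => fun o : K × Bool =>
    (1 / (Fintype.card K : ℝ)) * (if o.2 then p else 1 - p))
    (fun ω => Φ (fun x => (if (ω x).2 then {(ω x).1} else ∅ : Finset K))) := by
    rw [h]
    rfl
  rw [h2]
  unfold EW ES
  simp only [Finset.powerset_univ]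
  rw [Finset.sum_div]
  have h3 : ∀ χ : X → K, (∑ W : Finset X, wtS p univ W *
      Φ (fun x => if x ∈ W then {χ x} else ∅)) / (Fintype.card K : ℝ) ^ Fintype.card X
      = ∑ W : Finset X, ((1 / (Fintype.card K : ℝ)) ^ Fintype.card X * wtS p univ W) *
        Φ (fun x => if x ∈ W then {χ x} else ∅) := by
    intro χ
    rw [Finset.sum_div]
    apply Finset.sum_congr rfl
    intro W _
    rw [one_div, inv_pow]
    ring
  simp only [h3]
  rw [← Fintype.sum_prod_type (f := fun r : (X → K) × Finset X =>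
    ((1 / (Fintype.card K : ℝ)) ^ Fintype.card X * wtS p univ r.2) *
        Φ (fun x => if x ∈ r.2 then {r.1 x} else ∅))]
  symm
  apply Fintype.sum_equiv colE
  rintro ⟨χ, W⟩
  have e1 : (fun x => (if (colE (χ, W) x).2 then {(colE (χ, W) x).1} else ∅ : Finset K))
      = fun x => if x ∈ W then {χ x} else ∅ := by
    funext x
    simp [colE]
  rw [e1]
  congr 1
  rw [Finset.prod_mul_distrib, Finset.prod_const, Finset.card_univ]
  congr 1
  unfold wtS
  apply Finset.prod_congr rfl
  intro x _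
  simp [colE]

end Bridge

section Count

variable {K : Type*} [Fintype K] [DecidableEq K]

theorem card_perm_le (S : Finset K) (A : Finset (Equiv.Perm K))
    (h : ∀ σ ∈ A, ∀ τ ∈ A, ∀ c ∈ S, σ c = τ c) :
    A.card ≤ (Fintype.card K - S.card)! := by
  classical
  rcases A.eq_empty_or_nonempty with h0 | ⟨τ, hτ⟩
  · rw [h0, Finset.card_empty]; exact Nat.zero_le _
  · have h1 : Fintype.card {f : Equiv.Perm K // ∀ a, ¬ (a ∉ S) → f a = a}
        = (Fintype.card K - S.card)! := by
      rw [← Fintype.card_congr (Equiv.Perm.subtypeEquivSubtypePerm (fun a : K => a ∉ S)),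
        Fintype.card_perm]
      congr 1
      rw [Fintype.card_subtype_compl]
      simp
    rw [← h1, ← Fintype.card_coe]
    refine Fintype.card_le_of_injective
      (fun σ : A => ⟨τ⁻¹ * σ.1, fun a ha => ?_⟩) ?_
    · rw [Equiv.Perm.mul_apply, h σ.1 σ.2 τ hτ a (not_not.1 ha)]
      exact Equiv.symm_apply_apply τ a
    · intro σ ρ hσρ
      have := congrArg Subtype.val hσρ
      exact Subtype.ext (mul_left_cancel this)

theorem pow_le_desc {k f : ℕ} (hf : f ≤ k) : k ^ f * f ! ≤ f ^ f * k.descFactorial f := by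
  have h1 : f ! = ∏ i ∈ range f, (f - i) := by
    rw [← Nat.descFactorial_self, Nat.descFactorial_eq_prod_range]
  rw [h1, Nat.descFactorial_eq_prod_range, ← Finset.card_range f, ← Finset.prod_const,
    ← Finset.prod_const, Finset.card_range, ← Finset.prod_mul_distrib, ← Finset.prod_mul_distrib]
  apply Finset.prod_le_prod'
  intro i hi
  have hi' : i < f := Finset.mem_range.1 hi
  obtain ⟨a, rfl⟩ := Nat.exists_eq_add_of_le hi'.le
  obtain ⟨b, rfl⟩ := Nat.exists_eq_add_of_le hf
  have e1 : i + a - i = a := by omega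
  have e2 : i + a + b - i = a + b := by omega
  rw [e1, e2]
  nlinarith

theorem self_pow_le (f : ℕ) : (f : ℝ) ^ f ≤ 3 ^ f * (f ! : ℝ) := by
  have h := Real.pow_div_factorial_le_exp (f : ℝ) (Nat.cast_nonneg f) f
  have hpos : (0 : ℝ) < (f ! : ℝ) := by exact_mod_cast Nat.factorial_pos f
  rw [div_le_iff₀ hpos] at h
  refine h.trans (mul_le_mul_of_nonneg_right ?_ hpos.le)
  have e : Real.exp (f : ℝ) = Real.exp 1 ^ f := by
    rw [← Real.exp_nat_mul, mul_one]
  rw [e]
  apply pow_le_pow_left₀ (Real.exp_pos _).le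
  linarith [Real.exp_one_lt_d9]

theorem fact_le {k f : ℕ} (hf : f ≤ k) (hk : 0 < k) :
    ((k - f)! : ℝ) ≤ (k ! : ℝ) * (3 / (k : ℝ)) ^ f := by
  have hk' : (0 : ℝ) < k := by exact_mod_cast hk
  have h1 : (((k - f)! : ℕ) : ℝ) * (k.descFactorial f : ℝ) = (k ! : ℝ) := by
    exact_mod_cast Nat.factorial_mul_descFactorial hf
  have h2 : (k : ℝ) ^ f * (f ! : ℝ) ≤ (f : ℝ) ^ f * (k.descFactorial f : ℝ) := by
    exact_mod_cast pow_le_desc hf
  have h3 := self_pow_le f
  have hf0 : (0 : ℝ) < (f ! : ℝ) := by exact_mod_cast Nat.factorial_pos f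
  have hd : (0 : ℝ) ≤ (k.descFactorial f : ℝ) := Nat.cast_nonneg _
  have h4 : (k : ℝ) ^ f ≤ 3 ^ f * (k.descFactorial f : ℝ) := by
    have : (k : ℝ) ^ f * (f ! : ℝ) ≤ (3 ^ f * (k.descFactorial f : ℝ)) * (f ! : ℝ) :=
      h2.trans (by nlinarith)
    exact le_of_mul_le_mul_right this hf0
  have h5 : 1 ≤ (k.descFactorial f : ℝ) * (3 / (k : ℝ)) ^ f := by
    rw [div_pow, mul_div_assoc', le_div_iff₀ (pow_pos hk' f), one_mul]
    linarith
  rw [← h1, mul_assoc]
  have h6 : (0 : ℝ) ≤ ((k - f)! : ℕ) := Nat.cast_nonneg _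
  nlinarith

end Count

section Group

variable {G X K : Type*} [Group G] [Fintype G] [Fintype X] [DecidableEq X] [MulAction G X]
  [Fintype K] [DecidableEq K]

/-- Points are moved by the group, colours are permuted. -/
@[reducible] def act (G X K : Type*) [Group G] [MulAction G X] :
    MulAction (G × Equiv.Perm K) (X × K) where
  smul g e := (g.1 • e.1, g.2 e.2)
  one_smul e := by
    show ((1 : G) • e.1, (1 : Equiv.Perm K) e.2) = e
    simp
  mul_smul g h e := by
    show ((g.1 * h.1) • e.1, (g.2 * h.2) e.2) = (g.1 • h.1 • e.1, g.2 (h.2 e.2))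
    simp [mul_smul]

/-- The graph of a colouring over a set. -/
def lift (χ : X → K) (F : Finset X) : Finset (X × K) := F.image fun x => (x, χ x)

theorem mem_lift (χ : X → K) (F : Finset X) (e : X × K) :
    e ∈ lift χ F ↔ e.1 ∈ F ∧ e.2 = χ e.1 := by
  unfold lift
  rw [Finset.mem_image]
  constructor
  · rintro ⟨x, hx, rfl⟩
    exact ⟨hx, rfl⟩
  · rintro ⟨h1, h2⟩
    exact ⟨e.1, h1, by rw [← h2]⟩

theorem card_lift (χ : X → K) (F : Finset X) : (lift χ F).card = F.card := by
  unfold lift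
  apply Finset.card_image_of_injective
  intro x y h
  exact (Prod.mk.inj h).1

theorem sub_lift {χ : X → K} {H : Finset X} {D : Finset (X × K)} (h : D ⊆ lift χ H) :
    ∃ F ⊆ H, D = lift χ F := by
  refine ⟨D.image Prod.fst, ?_, ?_⟩
  · intro x hx
    obtain ⟨e, he, rfl⟩ := Finset.mem_image.1 hx
    exact ((mem_lift _ _ _).1 (h he)).1
  · ext e
    rw [mem_lift, Finset.mem_image]
    constructor
    · intro he
      exact ⟨⟨e, he, rfl⟩, ((mem_lift _ _ _).1 (h he)).2⟩
    · rintro ⟨⟨e', he', h1⟩, h2⟩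
      have h3 := ((mem_lift _ _ _).1 (h he')).2
      have : e = e' := by
        ext
        · exact h1.symm
        · rw [h2, h3, h1]
      rwa [this]

theorem stab_lift {χ : X → K} {H : Finset X} (hχ : Set.InjOn χ (H : Set X)) (F : Finset X)
    (hF : F ⊆ H) :
    letI := act G X K
    (univ.filter fun g : G × Equiv.Perm K => g • lift χ F = lift χ F).card ≤
      (univ.filter fun g : G => g • F = F).card * (Fintype.card K - F.card)! := by
  letI := act G X K
  have hsm : ∀ (g : G × Equiv.Perm K), g • lift χ F = lift χ F →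
      ∀ x ∈ F, g.1 • x ∈ F ∧ g.2 (χ x) = χ (g.1 • x) := by
    intro g hg x hx
    have h1 : g • ((x, χ x) : X × K) ∈ g • lift χ F :=
      Finset.smul_mem_smul_finset ((mem_lift _ _ _).2 ⟨hx, rfl⟩)
    rw [hg, mem_lift] at h1
    exact h1
  have hS : (F.image χ).card = F.card :=
    Finset.card_image_of_injOn (hχ.mono (by exact_mod_cast hF))
  rw [Finset.card_filter, Fintype.sum_prod_type, Finset.card_filter, Finset.sum_mul]
  apply Finset.sum_le_sum
  intro g _
  rw [← Finset.card_filter]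
  by_cases hg : g • F = F
  · rw [if_pos hg, one_mul, ← hS]
    apply card_perm_le
    intro σ hσ τ hτ c hc
    obtain ⟨x, hx, rfl⟩ := Finset.mem_image.1 hc
    have h1 := (hsm (g, σ) (Finset.mem_filter.1 hσ).2 x hx).2
    have h2 := (hsm (g, τ) (Finset.mem_filter.1 hτ).2 x hx).2
    simp only at h1 h2
    rw [h1, h2]
  · rw [if_neg hg, zero_mul, Nat.le_zero, Finset.card_eq_zero, Finset.filter_eq_empty_iff]
    intro σ _ hσ
    apply hg
    apply Finset.eq_of_subset_of_card_le
    · intro y hy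
      obtain ⟨x, hx, rfl⟩ := Finset.mem_smul_finset.1 hy
      exact (hsm (g, σ) hσ x hx).1
    · rw [Finset.card_smul_finset]

theorem ite_le_one {P Q : Prop} [Decidable P] [Decidable Q] (h : P → Q) :
    (if P then (1 : ℝ) else 0) ≤ if Q then (1 : ℝ) else 0 := by
  by_cases hP : P
  · rw [if_pos hP, if_pos (h hP)]
  · rw [if_neg hP]
    split_ifs <;> norm_num

open Classical in
/-- **Rainbow threshold theorem for group actions.** -/
theorem rainbow_eps {H : Finset X} (hH : H.Nonempty) (hK : H.card ≤ Fintype.card K) {q : ℝ}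
    (hq0 : 0 < q)
    (hq : ∀ F ⊆ H, F.Nonempty → ((univ.filter fun g : G => g • F = F).card : ℝ) ≤
      Fintype.card G * q ^ F.card)
    {ε : ℝ} (hε0 : 0 < ε) (hε1 : ε ≤ 1 / 2)
    {p : ℝ} (hp : 576 * 2 ^ 72 * q * Real.log ((H.card + 1) / ε) ≤ p) (hp1 : p ≤ 1) :
    1 - ε ≤ (∑ χ : X → K, ES p univ (fun W =>
      if ∃ g : G, g • H ⊆ W ∧ Set.InjOn χ ((g • H : Finset X) : Set X) then (1 : ℝ) else 0)) /
        (Fintype.card K : ℝ) ^ Fintype.card X := by
  letI := act G X K
  have hKpos : 0 < Fintype.card K := lt_of_lt_of_le (Finset.card_pos.2 hH) hK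
  have hKr : (0 : ℝ) < (Fintype.card K : ℝ) := by exact_mod_cast hKpos
  haveI : Nonempty K := Fintype.card_pos_iff.1 hKpos
  obtain ⟨χ0, hχ0⟩ : ∃ χ0 : X → K, Set.InjOn χ0 (H : Set X) := by
    obtain ⟨j⟩ : Nonempty ({x // x ∈ H} ↪ K) :=
      Function.Embedding.nonempty_of_card_le (by rwa [Fintype.card_coe])
    refine ⟨fun x => if h : x ∈ H then j ⟨x, h⟩ else Classical.arbitrary K, ?_⟩
    intro x hx y hy hxy
    have hx' : x ∈ H := hx
    have hy' : y ∈ H := hy
    simp only [hx', hy', dif_pos] at hxy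
    exact congrArg Subtype.val (j.injective hxy)
  obtain ⟨N, hN1, hN2, hN3⟩ := rounds_exist (Finset.card_pos.2 hH) hε0 hε1
  have hL : 0 ≤ Real.log (((H.card : ℝ) + 1) / ε) := by
    apply Real.log_nonneg
    rw [le_div_iff₀ hε0]
    have : (0 : ℝ) ≤ H.card := Nat.cast_nonneg _
    linarith
  have hp0 : 0 ≤ p := le_trans (by positivity) hp
  have hq' : ∀ D ⊆ lift χ0 H, D.Nonempty →
      ((univ.filter fun g : G × Equiv.Perm K => g • D = D).card : ℝ) ≤
      Fintype.card (G × Equiv.Perm K) * (3 * q / Fintype.card K) ^ D.card := by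
    intro D hD hne
    obtain ⟨F, hF, rfl⟩ := sub_lift hD
    have hFne : F.Nonempty := by
      rw [← Finset.card_pos, ← card_lift χ0 F, Finset.card_pos]
      exact hne
    rw [card_lift]
    have h1 := stab_lift (G := G) hχ0 F hF
    have h1' : ((univ.filter fun g : G × Equiv.Perm K => g • lift χ0 F = lift χ0 F).card : ℝ) ≤
      ((univ.filter fun g : G => g • F = F).card : ℝ) * ((Fintype.card K - F.card)! : ℕ) := by
      exact_mod_cast h1
    have h2 := hq F hF hFne
    have h3 := fact_le (k := Fintype.card K) (f := F.card)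
      ((Finset.card_le_card hF).trans hK) hKpos
    have h4 : (Fintype.card (G × Equiv.Perm K) : ℝ)
        = (Fintype.card G : ℝ) * ((Fintype.card K)! : ℕ) := by
      rw [Fintype.card_prod, Fintype.card_perm]
      push_cast
      ring
    refine h1'.trans ?_
    rw [h4]
    calc ((univ.filter fun g : G => g • F = F).card : ℝ) * ((Fintype.card K - F.card)! : ℕ)
        ≤ (Fintype.card G * q ^ F.card) *
          (((Fintype.card K)! : ℝ) * (3 / (Fintype.card K : ℝ)) ^ F.card) := by
          apply mul_le_mul h2 h3 (Nat.cast_nonneg _)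
          positivity
      _ = _ := by
          rw [show 3 * q / (Fintype.card K : ℝ) = q * (3 / (Fintype.card K : ℝ)) by ring, mul_pow]
          ring
  have hmain := abs_threshold_eps (G := G × Equiv.Perm K) (lift χ0 H)
    (3 * q / Fintype.card K) (by positivity) hq' N hN1 ε (p / Fintype.card K)
    (by rw [card_lift]; exact hN2) ?_ ?_
  · refine hmain.trans ?_
    rw [ES_prod]
    have hB : ∀ D : Finset (X × K), (∃ g : G × Equiv.Perm K, g • lift χ0 H = D) →
        ∀ x c c', (x, c) ∈ D → (x, c') ∈ D → c = c' := by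
      rintro D ⟨g, rfl⟩ x c c' h1 h2
      obtain ⟨e1, he1, h1'⟩ := Finset.mem_smul_finset.1 h1
      obtain ⟨e2, he2, h2'⟩ := Finset.mem_smul_finset.1 h2
      have k1 : g.1 • e1.1 = x ∧ g.2 e1.2 = c := Prod.mk.inj h1'
      have k2 : g.1 • e2.1 = x ∧ g.2 e2.2 = c' := Prod.mk.inj h2'
      have k3 : e1.1 = e2.1 := MulAction.injective g.1 (k1.1.trans k2.1.symm)
      have k4 : e1.2 = e2.2 := by
        rw [((mem_lift _ _ _).1 he1).2, ((mem_lift _ _ _).1 he2).2, k3]
      rw [← k1.2, ← k2.2, k4]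
    refine (one_colour (K := K) (X := X) (q := p / Fintype.card K) (p := p)
      (by positivity) (by field_simp) hp1
      (fun D => ∃ g : G × Equiv.Perm K, g • lift χ0 H = D) hB
      (fun S => ∃ g : G × Equiv.Perm K,
        g • lift χ0 H ⊆ (univ.filter fun e : X × K => e.2 ∈ S e.1)) ?_).trans ?_
    · intro S
      constructor
      · rintro ⟨g, hg⟩
        exact ⟨_, ⟨g, rfl⟩, fun e he => (Finset.mem_filter.1 (hg he)).2⟩
      · rintro ⟨_, ⟨g, rfl⟩, h⟩
        exact ⟨g, fun e he => Finset.mem_filter.2 ⟨Finset.mem_univ _, h e he⟩⟩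
    rw [EW_wB]
    apply div_le_div_of_nonneg_right _ (pow_nonneg hKr.le _)
    apply Finset.sum_le_sum
    intro χ _
    apply ES_mono hp0 hp1
    intro W _
    apply ite_le_one (fun h1 => ?_)
    obtain ⟨g, hg⟩ := h1
    have h : ∀ e ∈ g • lift χ0 H, e.2 ∈ (if e.1 ∈ W then ({χ e.1} : Finset K) else ∅) :=
      fun e he => (Finset.mem_filter.1 (hg he)).2
    have key : ∀ x ∈ H, g.1 • x ∈ W ∧ g.2 (χ0 x) = χ (g.1 • x) := by
      intro x hx
      have h3 := h (g • ((x, χ0 x) : X × K))
        (Finset.smul_mem_smul_finset ((mem_lift _ _ _).2 ⟨hx, rfl⟩))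
      have h4 : g.2 (χ0 x) ∈ (if g.1 • x ∈ W then ({χ (g.1 • x)} : Finset K) else ∅) := h3
      by_cases hw : g.1 • x ∈ W
      · rw [if_pos hw, Finset.mem_singleton] at h4
        exact ⟨hw, h4⟩
      · rw [if_neg hw] at h4
        exact absurd h4 (Finset.notMem_empty _)
    refine ⟨g.1, ?_, ?_⟩
    · intro y hy
      obtain ⟨x, hx, rfl⟩ := Finset.mem_smul_finset.1 hy
      exact (key x hx).1
    · intro y hy z hz hyz
      obtain ⟨x, hx, rfl⟩ := Finset.mem_smul_finset.1 (Finset.mem_coe.1 hy)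
      obtain ⟨x', hx', rfl⟩ := Finset.mem_smul_finset.1 (Finset.mem_coe.1 hz)
      rw [← (key x hx).2, ← (key x' hx').2] at hyz
      rw [hχ0 hx hx' (g.2.injective hyz)]
  · rw [div_eq_mul_inv, div_eq_mul_inv, ← mul_assoc]
    apply mul_le_mul_of_nonneg_right _ (inv_nonneg.2 hKr.le)
    refine le_trans ?_ hp
    have h1 : (0 : ℝ) ≤ 72 * 2 ^ 72 * q := by positivity
    calc 24 * 2 ^ 72 * (N : ℝ) * (3 * q) = 72 * 2 ^ 72 * q * N := by ring
      _ ≤ 72 * 2 ^ 72 * q * (8 * Real.log (((H.card : ℝ) + 1) / ε)) :=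
        mul_le_mul_of_nonneg_left hN3 h1
      _ = _ := by ring
  · rw [div_le_one hKr]
    have : (1 : ℝ) ≤ Fintype.card K := by exact_mod_cast hKpos
    linarith

end Group

end Vale.Agent.P064.H337
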