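import Vale.Agent.P064.H337.Rain
import Vale.Agent.P064.H444.Graph
import Vale.Agent.P064.H825.Defs

/-!
Rainbow copies in the randomly coloured binomial random graph.
-/

set_option linter.all false

namespace Vale.Agent.P064.H337

open Finset SimpleGraph MeasureTheory Vale.Agent.P064 Vale.Agent.P064.Act Vale.Agent.P064.H825
open scoped Pointwise

section Restrict

/-- Restriction of colourings to a subtype. -/
theorem card_restrict {α : Type*} [Fintype α] [DecidableEq α] (P : α → Prop) [DecidablePred P]
    {k : ℕ} (hk : 0 < k) (Q : ({x // P x} → Fin k) → Prop) [DecidablePred Q] :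
    (({c : α → Fin k | Q fun x => c x}.ncard : ℕ) : ℝ) / (k : ℝ) ^ Fintype.card α
      = (∑ χ : {x // P x} → Fin k, if Q χ then (1 : ℝ) else 0) /
        (k : ℝ) ^ Fintype.card {x // P x} := by
  have e := Equiv.piEquivPiSubtypeProd P (fun _ => Fin k)
  have h1 : {c : α → Fin k | Q fun x => c x}.ncard
      = (univ.filter fun χ : {x // P x} → Fin k => Q χ).card *
        Fintype.card ({x // ¬ P x} → Fin k) := by
    have h2 : {c : α → Fin k | Q fun x => c x}
        = (Equiv.piEquivPiSubtypeProd P (fun _ => Fin k)).symm ''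
          (((univ.filter fun χ : {x // P x} → Fin k => Q χ) ×ˢ
            (univ : Finset ({x // ¬ P x} → Fin k)) : Finset _) : Set _) := by
      ext c
      rw [Set.mem_setOf_eq, Equiv.image_symm_eq_preimage, Set.mem_preimage, Finset.mem_coe,
        Finset.mem_product, Finset.mem_filter]
      simp only [Finset.mem_univ, true_and, and_true]
      rfl
    rw [h2, Set.ncard_image_of_injective _ (Equiv.injective _), Set.ncard_coe_finset,
      Finset.card_product, Finset.card_univ]
  have h3 : Fintype.card α = Fintype.card {x // P x} + Fintype.card {x // ¬ P x} := by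
    rw [Fintype.card_subtype_compl]
    have := Fintype.card_subtype_le P
    omega
  have h4 : (Fintype.card ({x // ¬ P x} → Fin k) : ℝ) = (k : ℝ) ^ Fintype.card {x // ¬ P x} := by
    rw [Fintype.card_fun, Fintype.card_fin]
    push_cast
    rfl
  rw [h1, Finset.sum_boole]
  push_cast
  rw [h4, h3, pow_add]
  have hk' : (k : ℝ) ≠ 0 := by exact_mod_cast hk.ne'
  field_simp

end Restrict

theorem ES_swap {X Y : Type*} [Fintype X] [DecidableEq X] [Fintype Y] (p : ℝ)
    (f : Y → Finset X → ℝ) (c : ℝ) :
    (∑ y, ES p univ (f y)) / c = ES p univ (fun W => (∑ y, f y W) / c) := by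
  unfold ES
  rw [Finset.sum_comm, Finset.sum_div]
  apply Finset.sum_congr rfl
  intro W _
  rw [← Finset.mul_sum]
  ring

/-- **Rainbow copies of `H`**: if the edges of `G(n,p)` are coloured independently and uniformly
with `k ≥ e(H)` colours, then a copy of `H` whose edges have different colours appears with
probability at least `1 - ε`. -/
theorem rainbow {W : Type*} [Fintype W] {n k : ℕ} {H : SimpleGraph W}
    (hW : Fintype.card W ≤ n) (hH : H ≠ ⊥) (hk : H.edgeSet.ncard ≤ k) {ε : ℝ} (hε0 : 0 < ε)
    (hε1 : ε ≤ 1 / 2) (P : unitInterval)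
    (hP : 1152 * 2 ^ 72 * pE n H * Real.log ((H.edgeSet.ncard + 1) / ε) ≤ P) :
    1 - ε ≤ probRainbow n k H P := by
  classical
  obtain ⟨j⟩ : Nonempty (W ↪ Fin n) :=
    Function.Embedding.nonempty_of_card_le (by rwa [Fintype.card_fin])
  have hpos := pE_pos' hH j
  obtain ⟨⟨p, hpE, hp⟩, _⟩ := pE_isLeast H j
  rw [← hpE] at hP hpos
  have hstab := stab_bound H j p hp
  have hq : ∀ F, F ⊆ img H j → F.Nonempty →
      ((univ.filter (fun g : Equiv.Perm (Fin n) => g • F = F)).card : ℝ)
        ≤ Fintype.card (Equiv.Perm (Fin n)) * (2 * (p : ℝ)) ^ F.card := by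
    intro F hF hne
    refine (hstab F hF).trans ?_
    rw [mul_pow]
    have h1 : (2 : ℝ) ≤ 2 ^ F.card := by
      calc (2 : ℝ) = 2 ^ 1 := by norm_num
        _ ≤ 2 ^ F.card := pow_le_pow_right₀ (by norm_num) (Finset.card_pos.2 hne)
    have h2 : (0 : ℝ) ≤ Fintype.card (Equiv.Perm (Fin n)) * (p : ℝ) ^ F.card := by positivity
    nlinarith
  have hc : (img H j).card = H.edgeSet.ncard := card_img H j
  have hne := img_nonempty hH j
  have hkpos : 0 < k := lt_of_lt_of_le (Finset.card_pos.2 hne) (by rw [hc]; exact hk)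
  have hmain := rainbow_eps (G := Equiv.Perm (Fin n)) (K := Fin k) hne
    (by rw [hc, Fintype.card_fin]; exact hk) (q := 2 * (p : ℝ)) (by positivity) hq hε0 hε1
    (p := (P : ℝ)) ?_ P.2.2
  · refine hmain.trans ?_
    rw [ES_swap]
    unfold probRainbow
    rw [integral_eq_ES]
    apply ES_mono P.2.1 P.2.2
    intro Z _
    have hr := card_restrict (α := Sym2 (Fin n)) (fun e => ¬ e.IsDiag) hkpos
      (fun χ : Pair n → Fin k => ∃ g : Equiv.Perm (Fin n), g • img H j ⊆ Z ∧
        Set.InjOn χ ((g • img H j : Finset (Pair n)) : Set (Pair n)))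
    have hle : ((({c : Sym2 (Fin n) → Fin k | ∃ g : Equiv.Perm (Fin n), g • img H j ⊆ Z ∧
        Set.InjOn (fun x : Pair n => c x)
          ((g • img H j : Finset (Pair n)) : Set (Pair n))}.ncard : ℕ) : ℝ)) /
          (k : ℝ) ^ Fintype.card (Sym2 (Fin n)) ≤
        ({c : Sym2 (Fin n) → Fin k | ∃ K ∈ copies n H, K ≤ toG Z ∧
          Set.InjOn c K.edgeSet}.ncard : ℝ) / (k : ℝ) ^ Fintype.card (Sym2 (Fin n)) := by
      apply div_le_div_of_nonneg_right _ (by positivity)
      have : {c : Sym2 (Fin n) → Fin k | ∃ g : Equiv.Perm (Fin n), g • img H j ⊆ Z ∧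
          Set.InjOn (fun x : Pair n => c x)
            ((g • img H j : Finset (Pair n)) : Set (Pair n))} ⊆
          {c : Sym2 (Fin n) → Fin k | ∃ K ∈ copies n H, K ≤ toG Z ∧ Set.InjOn c K.edgeSet} := by
        rintro c ⟨g, hg, hinj⟩
        rw [smul_img] at hg hinj
        refine ⟨H.map (j.trans g.toEmbedding), ⟨_, rfl⟩, ?_, ?_⟩
        · intro a b hab
          have h1 : mkPair a b hab.ne ∈ img H (j.trans g.toEmbedding) := by
            unfold img
            rw [mem_ofG]
            exact hab
          exact ⟨hab.ne, hg h1⟩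
        · intro e he e' he' hee
          have hd := (H.map (j.trans g.toEmbedding)).not_isDiag_of_mem_edgeSet he
          have hd' := (H.map (j.trans g.toEmbedding)).not_isDiag_of_mem_edgeSet he'
          have h1 : (⟨e, hd⟩ : Pair n) ∈ img H (j.trans g.toEmbedding) := by
            unfold img
            rw [mem_ofG]
            exact he
          have h2 : (⟨e', hd'⟩ : Pair n) ∈ img H (j.trans g.toEmbedding) := by
            unfold img
            rw [mem_ofG]
            exact he'
          have h3 := hinj (Finset.mem_coe.2 h1) (Finset.mem_coe.2 h2) hee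
          exact congrArg Subtype.val h3
      exact_mod_cast Set.ncard_le_ncard this (Set.toFinite _)
    refine le_trans (le_of_eq ?_) hle
    rw [hr, Fintype.card_fin]
  · rw [hc]
    refine le_trans (le_of_eq ?_) hP
    ring

end Vale.Agent.P064.H337
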