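import Vale.Agent.P064.H444.Act

/-!
One colour instead of a binomial set of colours: the hybrid argument.
-/

set_option linter.all false

namespace Vale.Agent.P064.H337

open Finset Vale.Agent.P064 Vale.Agent.P064.Act

section Prod

variable {X F : Type*} [Fintype X] [DecidableEq X] [Fintype F] [DecidableEq F]

/-- Expectation for product weights. -/
noncomputable def EW (w : X → F → ℝ) (Φ : (X → F) → ℝ) : ℝ :=
  ∑ S : X → F, (∏ x, w x (S x)) * Φ S

/-- Average over the coordinate `x`. -/
noncomputable def avg (v : F → ℝ) (x : X) (Φ : (X → F) → ℝ) (S : X → F) : ℝ :=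
  ∑ s, v s * Φ (Function.update S x s)

/-- The involution of the swap. -/
def swapE (x : X) : (X → F) × F ≃ (X → F) × F where
  toFun p := (Function.update p.1 x p.2, p.1 x)
  invFun p := (Function.update p.1 x p.2, p.1 x)
  left_inv p := by simp
  right_inv p := by simp

theorem prod_split (w : X → F → ℝ) (x : X) (S : X → F) :
    ∏ y, w y (S y) = w x (S x) * ∏ y ∈ univ.erase x, w y (S y) :=
  (Finset.mul_prod_erase univ (fun y => w y (S y)) (mem_univ x)).symm

theorem prod_erase_update (w : X → F → ℝ) (x : X) (S : X → F) (s : F) :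
    ∏ y ∈ univ.erase x, w y (Function.update S x s y) = ∏ y ∈ univ.erase x, w y (S y) := by
  apply Finset.prod_congr rfl
  intro y hy
  rw [Function.update_of_ne (Finset.ne_of_mem_erase hy)]

theorem EW_swap (w : X → F → ℝ) (x : X) (hw : ∑ t, w x t = 1) (v : F → ℝ)
    (Φ : (X → F) → ℝ) :
    EW (Function.update w x v) Φ = EW w (avg v x Φ) := by
  have h1 : EW w (avg v x Φ) = ∑ p : (X → F) × F,
      (w x (p.1 x) * ∏ y ∈ univ.erase x, w y (p.1 y)) *
        (v p.2 * Φ (Function.update p.1 x p.2)) := by
    rw [Fintype.sum_prod_type]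
    unfold EW avg
    apply Finset.sum_congr rfl
    intro S _
    rw [Finset.mul_sum, prod_split w x S]
  have h2 : EW (Function.update w x v) Φ = ∑ p : (X → F) × F,
      (w x p.2 * ∏ y ∈ univ.erase x, w y (p.1 y)) * (v (p.1 x) * Φ p.1) := by
    rw [Fintype.sum_prod_type]
    unfold EW
    apply Finset.sum_congr rfl
    intro S _
    have e : ∏ y, Function.update w x v y (S y)
        = v (S x) * ∏ y ∈ univ.erase x, w y (S y) := by
      rw [prod_split, Function.update_self]
      congr 1
      apply Finset.prod_congr rfl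
      intro y hy
      rw [Function.update_of_ne (Finset.ne_of_mem_erase hy)]
    rw [e]
    have e2 : ∀ t, w x t * (∏ y ∈ univ.erase x, w y (S y)) * (v (S x) * Φ S)
        = w x t * ((∏ y ∈ univ.erase x, w y (S y)) * (v (S x) * Φ S)) := fun t => by ring
    simp only [e2]
    rw [← Finset.sum_mul, hw, one_mul]
    ring
  rw [h1, h2]
  apply Fintype.sum_equiv (swapE x)
  rintro ⟨S, s⟩
  simp only [swapE, Equiv.coe_fn_mk, Function.update_self, Function.update_idem,
    Function.update_eq_self, prod_erase_update]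

theorem EW_self (w : X → F → ℝ) (x : X) (hw : ∑ t, w x t = 1) (Φ : (X → F) → ℝ) :
    EW w Φ = EW w (avg (w x) x Φ) := by
  rw [← EW_swap w x hw, Function.update_eq_self]

theorem EW_mono {w : X → F → ℝ} (h0 : ∀ x s, 0 ≤ w x s) {Φ Ψ : (X → F) → ℝ}
    (h : ∀ S, Φ S ≤ Ψ S) : EW w Φ ≤ EW w Ψ := by
  unfold EW
  apply Finset.sum_le_sum
  intro S _
  exact mul_le_mul_of_nonneg_left (h S) (Finset.prod_nonneg fun x _ => h0 x _)

/-- The hybrid argument. -/
theorem EW_hybrid (a b : F → ℝ) (ha0 : ∀ s, 0 ≤ a s) (ha : ∑ s, a s = 1)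
    (hb0 : ∀ s, 0 ≤ b s) (hb : ∑ s, b s = 1) (Φ : (X → F) → ℝ)
    (h : ∀ x S, avg a x Φ S ≤ avg b x Φ S) :
    EW (fun _ => a) Φ ≤ EW (fun _ => b) Φ := by
  have key : ∀ T : Finset X,
      EW (fun _ => a) Φ ≤ EW (fun x => if x ∈ T then b else a) Φ := by
    intro T
    induction T using Finset.induction_on with
    | empty => simp
    | insert x T hx ih =>
      refine ih.trans ?_
      set w : X → F → ℝ := fun y => if y ∈ T then b else a with hw
      have hwx : w x = a := by simp [hw, hx]
      have e : (fun y => if y ∈ insert x T then b else a) = Function.update w x b := by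
        funext y
        by_cases hy : y = x
        · subst hy; simp
        · rw [Function.update_of_ne hy]
          simp [hw, hy]
      rw [e, EW_swap w x (by rw [hwx]; exact ha), EW_self w x (by rw [hwx]; exact ha), hwx]
      apply EW_mono
      · intro y s
        simp only [hw]
        split_ifs
        · exact hb0 s
        · exact ha0 s
      · intro S
        exact h x S
  simpa using key univ

/-- Push forward of product weights. -/
theorem EW_map {Ω : Type*} [Fintype Ω] [DecidableEq Ω] (u : Ω → ℝ) (h : Ω → F)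
    (Φ : (X → F) → ℝ) :
    EW (fun _ : X => u) (fun ω => Φ (fun x => h (ω x)))
      = EW (fun _ : X => fun s => ∑ o ∈ univ.filter (fun o => h o = s), u o) Φ := by
  unfold EW
  have h1 : ∀ S : X → F, ∏ x, (∑ o ∈ univ.filter (fun o => h o = S x), u o)
      = ∑ ω ∈ Fintype.piFinset (fun x => univ.filter (fun o => h o = S x)), ∏ x, u (ω x) := by
    intro S
    rw [Finset.prod_univ_sum]
  simp only [h1]
  have h2 : ∀ S : X → F, Fintype.piFinset (fun x => univ.filter (fun o => h o = S x))
      = univ.filter (fun ω : X → Ω => (fun x => h (ω x)) = S) := by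
    intro S
    ext ω
    simp [funext_iff]
  simp only [h2]
  rw [← Finset.sum_fiberwise univ (fun ω : X → Ω => (fun x => h (ω x)))]
  apply Finset.sum_congr rfl
  intro S _
  rw [Finset.sum_mul]
  apply Finset.sum_congr rfl
  intro ω hω
  rw [(mem_filter.1 hω).2]

end Prod

section Colours

variable {X K : Type*} [Fintype X] [DecidableEq X] [Fintype K] [DecidableEq K]

/-- Each colour independently with probability `q`. -/
noncomputable def wA (q : ℝ) (s : Finset K) : ℝ := wtS q univ s

/-- No colour with probability `1 - p`, otherwise one uniform colour. -/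
noncomputable def wB (p : ℝ) (s : Finset K) : ℝ :=
  ∑ o ∈ univ.filter (fun o : K × Bool => (if o.2 then {o.1} else ∅ : Finset K) = s),
    (1 / (Fintype.card K : ℝ)) * (if o.2 then p else 1 - p)

theorem wA_nonneg {q : ℝ} (h0 : 0 ≤ q) (h1 : q ≤ 1) (s : Finset K) : 0 ≤ wA q s :=
  wtS_nonneg h0 h1 _ _

theorem wA_sum (q : ℝ) : ∑ s : Finset K, wA q s = 1 := by
  have h := ES_const (X := K) q univ 1
  unfold ES at h
  rw [Finset.powerset_univ] at h
  simpa [wA] using h

theorem wB_nonneg {p : ℝ} (h0 : 0 ≤ p) (h1 : p ≤ 1) (s : Finset K) : 0 ≤ wB p s := by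
  unfold wB
  apply Finset.sum_nonneg
  intro o _
  split_ifs <;> [positivity; exact mul_nonneg (by positivity) (by linarith)]

theorem wB_sum_mul (p : ℝ) (Ψ : Finset K → ℝ) :
    ∑ s : Finset K, wB p s * Ψ s
      = ∑ o : K × Bool, (1 / (Fintype.card K : ℝ)) * (if o.2 then p else 1 - p) *
          Ψ (if o.2 then {o.1} else ∅) := by
  rw [← Finset.sum_fiberwise univ (fun o : K × Bool => (if o.2 then {o.1} else ∅ : Finset K))]
  apply Finset.sum_congr rfl
  intro s _
  unfold wB
  rw [Finset.sum_mul]
  apply Finset.sum_congr rfl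
  intro o ho
  rw [(mem_filter.1 ho).2]

theorem wB_sum [Nonempty K] (p : ℝ) : ∑ s : Finset K, wB p s = 1 := by
  have h := wB_sum_mul (K := K) p (fun _ => 1)
  simp only [mul_one] at h
  rw [h, Fintype.sum_prod_type]
  have hK : (Fintype.card K : ℝ) ≠ 0 := by
    exact_mod_cast Fintype.card_ne_zero
  simp

/-- The average of an event: no colour needed, or one colour of `U` is present. -/
theorem local_le [Nonempty K] {q p : ℝ} (hq0 : 0 ≤ q) (hp : (Fintype.card K : ℝ) * q = p)
    (hp1 : p ≤ 1) (b : Prop) (U : Finset K) [Decidable b]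
    [∀ s : Finset K, Decidable (b ∨ ∃ c ∈ U, c ∈ s)] :
    ∑ s : Finset K, wA q s * (if b ∨ ∃ c ∈ U, c ∈ s then (1 : ℝ) else 0)
      ≤ ∑ s : Finset K, wB p s * (if b ∨ ∃ c ∈ U, c ∈ s then (1 : ℝ) else 0) := by
  have hK : (0 : ℝ) < (Fintype.card K : ℝ) := by
    exact_mod_cast Fintype.card_pos
  have hK1 : (1 : ℝ) ≤ (Fintype.card K : ℝ) := by
    exact_mod_cast Fintype.card_pos
  have hq1 : q ≤ 1 := by nlinarith
  by_cases hb : b
  · simp only [hb, true_or, if_true, mul_one]
    rw [wA_sum, wB_sum]
  · simp only [hb, false_or]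
    have hR : ∑ s : Finset K, wB p s * (if ∃ c ∈ U, c ∈ s then (1 : ℝ) else 0)
        = q * U.card := by
      rw [wB_sum_mul, Fintype.sum_prod_type]
      simp only [Fintype.sum_bool, if_true, if_false, Finset.mem_singleton, exists_eq_right,
        Finset.notMem_empty, and_false, exists_false, mul_zero, add_zero, Bool.false_eq_true]
      rw [← Finset.mul_sum, Finset.sum_boole]
      have e : (univ.filter fun x => x ∈ U) = U := by ext; simp
      rw [e, ← hp]
      field_simp
    rw [hR]
    have hL : ∑ s : Finset K, wA q s * (if ∃ c ∈ U, c ∈ s then (1 : ℝ) else 0)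
        ≤ ∑ s : Finset K, wA q s * ∑ c ∈ U, (if c ∈ s then (1 : ℝ) else 0) := by
      apply Finset.sum_le_sum
      intro s _
      apply mul_le_mul_of_nonneg_left _ (wA_nonneg hq0 hq1 s)
      split_ifs with h
      · obtain ⟨c, hc, hcs⟩ := h
        have := Finset.single_le_sum (f := fun c => if c ∈ s then (1 : ℝ) else 0)
          (fun c _ => by split_ifs <;> norm_num) hc
        simpa [hcs] using this
      · apply Finset.sum_nonneg
        intro c _
        split_ifs <;> norm_num
    refine hL.trans (le_of_eq ?_)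
    have hE : ∀ c : K, ∑ s : Finset K, wA q s * (if c ∈ s then (1 : ℝ) else 0) = q := by
      intro c
      have h := ES_subsetB (X := K) q univ {c} (subset_univ _)
      unfold ES at h
      rw [Finset.powerset_univ] at h
      simpa [wA] using h
    calc ∑ s : Finset K, wA q s * ∑ c ∈ U, (if c ∈ s then (1 : ℝ) else 0)
        = ∑ c ∈ U, ∑ s : Finset K, wA q s * (if c ∈ s then (1 : ℝ) else 0) := by
          rw [Finset.sum_comm]
          apply Finset.sum_congr rfl
          intro s _
          rw [Finset.mul_sum]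
      _ = q * U.card := by
          simp only [hE, Finset.sum_const, nsmul_eq_mul]
          ring

/-- One uniform colour is better than the binomial set of colours. -/
theorem one_colour [Nonempty K] {q p : ℝ} (hq0 : 0 ≤ q) (hp : (Fintype.card K : ℝ) * q = p)
    (hp1 : p ≤ 1) (B : Finset (X × K) → Prop)
    (hB : ∀ D, B D → ∀ x c c', (x, c) ∈ D → (x, c') ∈ D → c = c')
    (P : (X → Finset K) → Prop) {inst : ∀ S, Decidable (P S)}
    (hP : ∀ S, P S ↔ ∃ D, B D ∧ ∀ e ∈ D, e.2 ∈ S e.1) :
    EW (fun _ : X => wA q) (fun S => if P S then (1 : ℝ) else 0)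
      ≤ EW (fun _ : X => wB p) (fun S => if P S then (1 : ℝ) else 0) := by
  classical
  have hK1 : (1 : ℝ) ≤ (Fintype.card K : ℝ) := by
    exact_mod_cast Fintype.card_pos
  have hp0 : 0 ≤ p := by rw [← hp]; positivity
  have hq1 : q ≤ 1 := by nlinarith
  apply EW_hybrid _ _ (wA_nonneg hq0 hq1) (wA_sum q) (wB_nonneg hp0 hp1) (wB_sum p)
  intro x S
  unfold avg
  set b : Prop := ∃ D, B D ∧ (∀ e ∈ D, e.1 ≠ x → e.2 ∈ S e.1) ∧ ∀ e ∈ D, e.1 ≠ x with hb
  set U : Finset K := univ.filter (fun c => ∃ D, B D ∧ (∀ e ∈ D, e.1 ≠ x → e.2 ∈ S e.1) ∧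
    (x, c) ∈ D) with hU
  have key : ∀ s : Finset K,
      (∃ D, B D ∧ ∀ e ∈ D, e.2 ∈ Function.update S x s e.1) ↔ (b ∨ ∃ c ∈ U, c ∈ s) := by
    intro s
    constructor
    · rintro ⟨D, hD, h⟩
      have h1 : ∀ e ∈ D, e.1 ≠ x → e.2 ∈ S e.1 := by
        intro e he hne
        have := h e he
        rwa [Function.update_of_ne hne] at this
      by_cases hx : ∀ e ∈ D, e.1 ≠ x
      · exact Or.inl ⟨D, hD, h1, hx⟩
      · push Not at hx
        obtain ⟨⟨y, c⟩, he, hy⟩ := hx
        simp only at hy
        subst hy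
        refine Or.inr ⟨c, mem_filter.2 ⟨mem_univ _, D, hD, h1, he⟩, ?_⟩
        have := h _ he
        simpa using this
    · rintro (⟨D, hD, h1, h2⟩ | ⟨c, hc, hcs⟩)
      · refine ⟨D, hD, fun e he => ?_⟩
        rw [Function.update_of_ne (h2 e he)]
        exact h1 e he (h2 e he)
      · obtain ⟨_, D, hD, h1, hcD⟩ := mem_filter.1 hc
        refine ⟨D, hD, fun e he => ?_⟩
        by_cases hx : e.1 = x
        · obtain ⟨y, c'⟩ := e
          simp only at hx
          subst hx
          have : c' = c := hB D hD _ _ _ he hcD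
          subst this
          simpa using hcs
        · rw [Function.update_of_ne hx]
          exact h1 e he hx
  have e1 : ∀ s : Finset K, (if P (Function.update S x s)
      then (1 : ℝ) else 0) = if b ∨ ∃ c ∈ U, c ∈ s then (1 : ℝ) else 0 := by
    intro s
    exact if_congr ((hP _).trans (key s)) rfl rfl
  simp only [e1]
  exact local_le hq0 hp hp1 b U

end Colours

end Vale.Agent.P064.H337
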